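import Crest.Agent.X212.Jb7.Defs

/-!
# X212 / Jb7 (helper7): operations on families of terms; the skeleton job
-/

set_option autoImplicit false
set_option linter.unusedSectionVars false
noncomputable section
open scoped Manifold ContDiff Topology
open Set Function Filter Classical

namespace Crest.Agent.X212.An.Job
open M Wrd81 Nd18 Jb7

variable {Wi W₀ W₁ W₂ : Type} {X : Mf 4} {A κ lam : Type} [Fintype A] [Fintype κ] [Fintype lam]
  [DecidableEq lam] {M : Mark X A κ} {W : World M} {N : ML M lam} {Λ : Lns W N}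
  {A' A'' h : Type} [Fintype A'] [DecidableEq A'] [Fintype A''] [DecidableEq A''] [Fintype h]
  {r n : ℕ} {J : Job W₀ Λ A' h r n} {J' : Job W₁ Λ A'' h r n} {sh : Set A'} {sh' : Set A''}
  {t : Tr Wi X.M (lam ⊕ lam) h A' r n} {t' : Tr W₂ X.M (lam ⊕ lam) h A' r n}
  {χ : (A' → ℝ) → ℝ} {f : A' → A''} {s : A' → ℝ} {P P' : Set (Reg A)}

theorem OK.tok (h : J.OK) : J.TOK J.tr := ⟨h.tw, h.co, h.tc, h.cc⟩

theorem Loc.tloc (h : J.Loc sh) : J.TLoc sh J.tr := ⟨h.cc, h.co, h.bas⟩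

theorem putY_ok (h : J.OK) (k : J.TOK t) (ty) : (J.putY t ty).OK :=
  { h with
    tw := k.tw, co := k.co, tc := k.tc, cc := k.cc
    nk := fun c a b p ha => let j := h.nk c a b p ha; { j with } }

theorem put_ok (h : J.OK) (k : J.TOK t) : (J.put t).OK := putY_ok h k _

theorem putY_loc (h : J.Loc sh) (k : J.TLoc sh t) (ty) : (J.putY t ty).Loc sh :=
  { h with cc := k.cc, co := k.co, bas := k.bas }

theorem put_loc (h : J.Loc sh) (k : J.TLoc sh t) : (J.put t).Loc sh := putY_loc h k _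

theorem Ag.mono {V V' : Set A} {sh₁ : Set A'} {s s' : A' → ℝ} (h : J.Ag sh V s s') (k : sh₁ ⊆ sh)
    (e : V' ⊆ V) : J.Ag sh₁ V' s s' := fun a j =>
  h a (j.imp (@k a) fun ⟨x, j1, j2⟩ => ⟨x, e j1, j2⟩)

/-! ### `TOK` -/

theorem tok_nil : J.TOK (Tr.nil : Tr _ X.M (lam ⊕ lam) h A' r n) :=
  ⟨fun w => w.elim, fun w => w.elim, fun _ w => w.elim, fun _ w => w.elim⟩

theorem TOK.sum (h : J.TOK t) (h' : J.TOK t') : J.TOK (t.sum t') :=
  ⟨Sum.rec h.tw h'.tw, Sum.rec h.co h'.co, fun i => Sum.rec (h.tc i) (h'.tc i),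
    fun i => Sum.rec (h.cc i) (h'.cc i)⟩

theorem TOK.mul (h : J.TOK t) (k : ContDiff ℝ ∞ χ) : J.TOK (t.mul χ) :=
  ⟨fun w => let ⟨V, a, s₀, b, c⟩ := h.tw w
      ⟨V, a, s₀, b, fun σ hσ s hs x y d e g => mul_eq_zero_of_right _ (c σ hσ s hs x y d e g)⟩,
    fun w => k.mul (h.co w),
    fun i w => let ⟨V, a, s₀, b, c⟩ := h.tc i w
      ⟨V, a, s₀, b, fun σ hσ s hs x y d e g => mul_eq_zero_of_right _ (c σ hσ s hs x y d e g)⟩,
    fun i w => k.mul (h.cc i w)⟩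

namespace Map
variable (m : J'.Map J f)
include m

theorem hw : J'.hw = J.hw := Set.ext fun x =>
  ⟨fun ⟨a, ha⟩ => let ⟨b, e⟩ := m.rg a x ha; ⟨b, (m.hd b).symm.trans (e ▸ ha)⟩,
    fun ⟨a, ha⟩ => ⟨f a, (m.hd a).trans ha⟩⟩

theorem dom {σ : Cel A''} {s : A'' → ℝ} (hs : s ∈ J'.dom σ) : s ∘ f ∈ J.dom (σ ∘ f) :=
  ⟨fun a b e => hs.1 (f a) b e, fun a e => hs.2 (f a) (m.hd a ▸ e)⟩

theorem ag (k : MapsTo f sh sh') {V : Set A} {s s' : A'' → ℝ} (e : J'.Ag sh' V s s') :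
    J.Ag sh V (s ∘ f) (s' ∘ f) := fun a j =>
  e (f a) (j.imp (@k a) fun ⟨x, j1, j2⟩ => ⟨x, j1, (m.hd a).trans j2⟩)

theorem van {V : Set A} {g : (A' → ℝ) → ℝ} (c : ∃ s₀ < (1 : ℝ), ∀ σ ∈ J.𝒦, ∀ s ∈ J.dom σ,
      ∀ a x, J.hd a = some x → x ∈ V → s₀ ≤ s a → g s = 0) : ∃ s₀ < (1 : ℝ), ∀ σ ∈ J'.𝒦,
      ∀ s ∈ J'.dom σ, ∀ a x, J'.hd a = some x → x ∈ V → s₀ ≤ s a → g (s ∘ f) = 0 :=
  c.imp fun _ c => ⟨c.1, fun σ hσ s hs a x d e l => by
    obtain ⟨b, rfl⟩ := m.rg a x d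
    exact c.2 _ (m.K σ hσ) _ (m.dom hs) b x ((m.hd b).symm.trans d) e l⟩

end Map

theorem contDiff_comp (f : A' → A'') : ContDiff ℝ ∞ fun s : A'' → ℝ => s ∘ f :=
  contDiff_pi.2 fun a => contDiff_apply ℝ ℝ (f a)

theorem TOK.cmp (h : J.TOK t) (m : J'.Map J f) : J'.TOK (t.cmp f) :=
  ⟨fun w => (h.tw w).imp fun _ c => ⟨m.hw ▸ c.1, m.van c.2⟩,
    fun w => (h.co w).comp (contDiff_comp f),
    fun i w => (h.tc i w).imp fun _ c => ⟨m.hw ▸ c.1, m.van c.2⟩,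
    fun i w => (h.cc i w).comp (contDiff_comp f)⟩

/-! ### `TLoc` -/

theorem tloc_nil : J.TLoc sh (Tr.nil : Tr _ X.M (lam ⊕ lam) h A' r n) :=
  ⟨fun _ _ _ _ _ _ _ _ _ _ _ _ _ _ w => w.elim, fun _ _ _ _ _ _ _ _ _ _ _ _ w => w.elim,
    fun w => w.elim⟩

theorem TLoc.sum (h : J.TLoc sh t) (h' : J.TLoc sh t') : J.TLoc sh (t.sum t') :=
  ⟨fun σ a s b s' c d e g P i j k l => Sum.rec (h.cc σ a s b s' c d e g P i j k l)
      (h'.cc σ a s b s' c d e g P i j k l),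
    fun σ a s b s' c d e g P i j => Sum.rec (h.co σ a s b s' c d e g P i j)
      (h'.co σ a s b s' c d e g P i j), Sum.rec h.bas h'.bas⟩

theorem TLoc.mul (h : J.TLoc sh t) (k : ∀ s s', J.Ag sh ∅ s s' → χ s = χ s') :
    J.TLoc sh (t.mul χ) :=
  ⟨fun σ a s b s' c d e g P i j l o w => congrArg₂ (· * ·) (k s s' (j.mono le_rfl (empty_subset _)))
      (h.cc σ a s b s' c d e g P i j l o w),
    fun σ a s b s' c d e g P i j w => (h.co σ a s b s' c d e g P i j w).imp_left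
      (congrArg₂ (· * ·) (k s s' (j.mono le_rfl (empty_subset _)))), h.bas⟩

theorem TLoc.cmp (h : J.TLoc sh t) (m : J'.Map J f) (k : MapsTo f sh sh') :
    J'.TLoc sh' (t.cmp f) :=
  ⟨fun σ a s b s' c d e g P i j l o => h.cc _ (m.K σ a) _ (m.dom b) _ (m.dom c) d
      ((m.inf σ a s b).symm.trans e) ((m.inf σ a s' c).symm.trans g) P i (m.ag k j) l (m.nb ▸ o),
    fun σ a s b s' c d e g P i j => h.co _ (m.K σ a) _ (m.dom b) _ (m.dom c) d
      ((m.inf σ a s b).symm.trans e) ((m.inf σ a s' c).symm.trans g) P i (m.ag k j), h.bas⟩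

theorem TLoc.mono {sh₁ : Set A'} (h : J.TLoc sh t) (k : sh ⊆ sh₁) : J.TLoc sh₁ t :=
  ⟨fun σ a s b s' c d e g P i j => h.cc σ a s b s' c d e g P i (j.mono k le_rfl),
    fun σ a s b s' c d e g P i j => h.co σ a s b s' c d e g P i (j.mono k le_rfl), h.bas⟩

/-! ### richness -/

/-- the terms of `t` at `s` are terms of `t'` at `s'` -/
def _root_.Crest.Agent.X212.Jb7.Tr.Le (t : Tr Wi X.M (lam ⊕ lam) h A' r n) (s : A' → ℝ)
    (t' : Tr W₂ X.M (lam ⊕ lam) h A'' r n) (s' : A'' → ℝ) : Prop :=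
  ∀ w, ∃ w', t'.tw w' = t.tw w ∧ (t'.co w' s' = 0 ↔ t.co w s = 0) ∧
    ∀ i, t'.tc i w' = t.tc i w ∧ (t'.cc i w' s' = 0 ↔ t.cc i w s = 0)

end Crest.Agent.X212.An.Job

namespace Crest.Agent.X212.Jb7.Tr.Le
open An M Wrd81 Nd18

variable {Wi W₀ W₁ W₂ W₃ : Type} {X : Mf 4} {A κ lam : Type} [Fintype A] [Fintype κ] [Fintype lam]
  [DecidableEq lam] {M : Mark X A κ} {W W' : World M} {N N' : ML M lam} {Λ : Lns W N}
  {Λ' : Lns W' N'} {A' A'' A₃ h : Type} [Fintype A'] [DecidableEq A'] [Fintype A'']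
  [DecidableEq A''] [Fintype h] {r n : ℕ} {J : Job W₀ Λ A' h r n} {J' : Job W₁ Λ' A'' h r n}
  {t : Tr Wi X.M (lam ⊕ lam) h A' r n} {t' : Tr W₂ X.M (lam ⊕ lam) h A'' r n}
  {s : A' → ℝ} {s' : A'' → ℝ}

theorem refl : t.Le s t s := fun w => ⟨w, rfl, .rfl, fun _ => ⟨rfl, .rfl⟩⟩

theorem inl {t₂ : Tr W₃ X.M (lam ⊕ lam) h A'' r n} (k : t.Le s t' s') : t.Le s (t'.sum t₂) s' :=
  fun w => let ⟨v, a⟩ := k w; ⟨.inl v, a⟩

theorem inr {t₂ : Tr W₃ X.M (lam ⊕ lam) h A'' r n} (k : t.Le s t' s') : t.Le s (t₂.sum t') s' :=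
  fun w => let ⟨v, a⟩ := k w; ⟨.inr v, a⟩

theorem mul {χ : (A'' → ℝ) → ℝ} (k : t.Le s t' s') (e : χ s' ≠ 0) : t.Le s (t'.mul χ) s' :=
  fun w => let ⟨v, a, b, c⟩ := k w
    ⟨v, a, (mul_eq_zero_iff_left e).trans b, fun i => ⟨(c i).1, (mul_eq_zero_iff_left e).trans (c i).2⟩⟩

theorem rep {g : (A₃ → ℝ) → A'' → ℝ} {s₃ : A₃ → ℝ} (k : t.Le s t' (g s₃)) :
    t.Le s (t'.rep g) s₃ := k

theorem cmp {f : A'' → A₃} {s₃ : A₃ → ℝ} (k : t.Le s t' (s₃ ∘ f)) : t.Le s (t'.cmp f) s₃ := k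

variable (k : t.Le s t' s')
include k

theorem hasT {τ} (e : (J.put t).HasT s τ) : (J'.put t').HasT s' τ :=
  let ⟨w, a, b, c, _⟩ := e; let ⟨v, d, f, g⟩ := k w
  ⟨v, d.trans a, mt f.1 b, fun i => (g i).2.2 (c i), fun _ => smul_zero _⟩

theorem richT {π} (e : (J.put t).RichT s π) : (J'.put t').RichT s' π :=
  fun τ a b c => k.hasT (e τ a b c)

theorem richS (e : (J.put t).RichS s) : (J'.put t').RichS s' := fun i a j => k.hasT (e i a j)

theorem richC {π i} (e : (J.put t).RichC s π i) : (J'.put t').RichC s' π i := fun τ a =>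
  let ⟨w, b, c, d, g, _⟩ := e τ a; let ⟨v, _, f, l⟩ := k w
  ⟨v, (l i).1.trans b, mt (l i).2.1 c, f.2 d, fun j o => (l j).2.2 (g j o), fun _ => smul_zero _⟩

theorem tAt {P} (hn : J'.nb = J.nb) (e : J.TAt t s P) : J'.TAt t' s' P :=
  ⟨fun π a => k.richT (e.1 π a), k.richS e.2.1, fun π a i b => k.richC (e.2.2 π a i (hn ▸ b))⟩

end Crest.Agent.X212.Jb7.Tr.Le

namespace Crest.Agent.X212.An.Job
open M Wrd81 Nd18 Jb7

variable {Wi W₀ W₁ W₂ : Type} {X : Mf 4} {A κ lam : Type} [Fintype A] [Fintype κ] [Fintype lam]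
  [DecidableEq lam] {M : Mark X A κ} {W : World M} {N : ML M lam} {Λ : Lns W N}
  {A' A'' h : Type} [Fintype A'] [DecidableEq A'] [Fintype A''] [DecidableEq A''] [Fintype h]
  {r n : ℕ} {J : Job W₀ Λ A' h r n} {J' : Job W₁ Λ A'' h r n} {sh : Set A'} {sh' : Set A''}
  {t : Tr Wi X.M (lam ⊕ lam) h A' r n} {t' : Tr W₂ X.M (lam ⊕ lam) h A' r n}
  {χ : (A' → ℝ) → ℝ} {f : A' → A''} {s : A' → ℝ} {P P' : Set (Reg A)}

theorem TAt.mono (h : J.TAt t s P) (k : P' ⊆ P) : J.TAt t s P' :=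
  ⟨fun π a => h.1 π (k a), h.2.1, fun π a => h.2.2 π (k a)⟩

theorem TAt.inl (h : J.TAt t s P) : J.TAt (t.sum t') s P :=
  Tr.Le.refl.inl.tAt rfl h

theorem TAt.inr (h : J.TAt t' s P) : J.TAt (t.sum t') s P :=
  Tr.Le.refl.inr.tAt rfl h

theorem TAt.mul (h : J.TAt t s P) (k : χ s ≠ 0) : J.TAt (t.mul χ) s P :=
  (Tr.Le.refl.mul k).tAt rfl h

theorem TAt.cmp {s : A'' → ℝ} (h : J.TAt t (s ∘ f) P) (hn : J'.nb = J.nb) : J'.TAt (t.cmp f) s P :=
  Tr.Le.refl.cmp.tAt hn h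

variable {σ : Cel A'} {c : M.Cl}

theorem trich_iff : J.TRich t σ c P ↔ ∀ s ∈ cl σ, Sys.inf (J.Θ s).2 = c.1 → J.TAt t s P := .rfl

theorem TRich.cmp {σ : Cel A''} (h : J.TRich t (σ ∘ f) c P) (m : J'.Map J f) (hσ : σ ∈ J'.𝒦) :
    J'.TRich (t.cmp f) σ c P := fun s hs e =>
  TAt.cmp (h (s ∘ f) ⟨fun a b j => hs.1 (f a) b j, fun a => hs.2 (f a)⟩
    ((m.inf σ hσ s (J'.cl_dom hs)).symm.trans e)) m.nb

/-- prisms: one of the two factors is not zero -/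
theorem TRich.prism {χ' : (A' → ℝ) → ℝ} (h : J.TRich t σ c P) (h' : J.TRich t' σ c P)
    (k : ∀ s ∈ cl σ, χ s ≠ 0 ∨ χ' s ≠ 0) : J.TRich ((t.mul χ).sum (t'.mul χ')) σ c P :=
  fun s hs e => (k s hs).elim (fun j => (TAt.mul (h s hs e) j).inl)
    fun j => (TAt.mul (h' s hs e) j).inr

/-- richness with neck words: the indices without neck words suffice -/
theorem TAt.putY (h : J.TAt t' s P) (ty : ∀ a, Wi → YW (J.xs a).Y.I (J.xs a).Y.M →₀ ℝ) :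
    let J₁ := J.putY (t.sum t') fun a => Sum.elim (ty a) 0
    (∀ π ∈ P, J₁.RichT s π) ∧ J₁.RichS s ∧ ∀ π ∈ P, ∀ i, J.nb i ⊆ M.sys.U π → J₁.RichC s π i := by
  intro J₁
  have k : ∀ τ, (J.put t').HasT s τ → J₁.HasT s τ := fun τ ⟨w, a, b, c, _⟩ =>
    ⟨.inr w, a, b, c, fun _ => smul_zero _⟩
  exact ⟨fun π hπ τ a b c => k τ (h.1 π hπ τ a b c), fun i a j => k _ (h.2.1 i a j),
    fun π hπ i hi τ a => let ⟨w, b, c, d, g, _⟩ := h.2.2 π hπ i hi τ a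
      ⟨.inr w, b, c, d, g, fun _ => smul_zero _⟩⟩

/-- the wall parameters of the job itself -/
theorem OK.th (h : J.OK) (k : J.Loc sh) : J.Th sh fun s => (J.Θ s).2 :=
  ⟨h.sm.snd, h.par, fun _ _ _ _ => rfl,
    h.lin.imp fun _ c => ⟨c.1, fun a x d s e => (c.2 a x d s e).1⟩, k.t⟩

end Crest.Agent.X212.An.Job

namespace Crest.Agent.X212.Jb7
open An M Wrd81 Nd18

theorem contDiff_rho : ContDiff ℝ ∞ rho :=
  contDiff_id.mul (Real.smoothTransition.contDiff.comp (contDiff_const.mul contDiff_id))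

theorem rho_of_le {x : ℝ} (h : x ≤ 0) : rho x = 0 := by
  rw [rho, Real.smoothTransition.zero_of_nonpos (by linarith), mul_zero]

theorem rho_of_ge {x : ℝ} (h : 1 / 2 ≤ x) : rho x = x := by
  rw [rho, Real.smoothTransition.one_of_one_le (by linarith), mul_one]

theorem rho_nonneg (x : ℝ) : 0 ≤ rho x := by
  rcases le_total x 0 with h | h
  exacts [(rho_of_le h).ge, mul_nonneg h (Real.smoothTransition.nonneg _)]

theorem rho_le {x : ℝ} (h : 0 ≤ x) : rho x ≤ x :=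
  mul_le_of_le_one_right h (Real.smoothTransition.le_one _)

theorem rho_mem {x : ℝ} (h : x ≤ 1) : rho x ∈ Icc (0 : ℝ) 1 := by
  rcases le_total x 0 with k | k
  exacts [by simp [rho_of_le k], ⟨rho_nonneg x, (rho_le k).trans h⟩]

theorem rho_eq_one {x : ℝ} (h : x ≤ 1) : rho x = 1 ↔ x = 1 := by
  refine ⟨fun e => ?_, fun e => by rw [e, rho_of_ge (by norm_num)]⟩
  rcases le_total x 0 with k | k
  exacts [by simp [rho_of_le k] at e, h.antisymm (e.ge.trans (rho_le k))]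

theorem contDiff_swc : ContDiff ℝ ∞ swc :=
  Real.smoothTransition.contDiff.comp ((contDiff_const.mul contDiff_id).sub contDiff_const)

theorem swc_of_le {x : ℝ} (h : x ≤ 3 / 4) : swc x = 0 :=
  Real.smoothTransition.zero_of_nonpos (by linarith)

theorem swc_of_ge {x : ℝ} (h : 7 / 8 ≤ x) : swc x = 1 :=
  Real.smoothTransition.one_of_one_le (by linarith)

variable {X : Mf 4} {A κ lam : Type} [Fintype A] [Fintype κ] [Fintype lam]
  [DecidableEq lam] {M : Mark X A κ} {W : World M} {N : ML M lam}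

section th
variable {B : Type} {H fz : Set A} {Tf : A → (B → ℝ) → ℝ} {s : A ⊕ B → ℝ} {a : A}

theorem thS_fz (h : a ∈ fz) : thS H fz Tf s a = Tf a (s ∘ .inr) := if_pos h

theorem thS_H (h : a ∉ fz) (h' : a ∈ H) : thS H fz Tf s a = rho (s (.inl a)) :=
  (if_neg h).trans (if_pos h')

theorem thS_out (h : a ∉ fz) (h' : a ∉ H) : thS H fz Tf s a = 0 := (if_neg h).trans (if_neg h')

theorem contDiff_thS [Fintype B] (h : ∀ a, ContDiff ℝ ∞ (Tf a)) : ContDiff ℝ ∞ (thS H fz Tf) :=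
  contDiff_pi.2 fun a => by
    unfold thS
    split_ifs
    exacts [(h a).comp (contDiff_pi.2 fun b => contDiff_apply ℝ ℝ (Sum.inr b : A ⊕ B)),
      contDiff_rho.comp (contDiff_apply ℝ ℝ (Sum.inl a : A ⊕ B)), contDiff_const]

end th

namespace Sk
variable {Λ : Lns W N} {B h : Type} [DecidableEq A] [Fintype B] [DecidableEq B] [Fintype h]
  {S : Sk Λ B h} {r n : ℕ}

theorem hd_eq {a : A ⊕ B} {x : A} : (S.job r n).hd a = some x ↔ x ∈ S.H ∧ a = .inl x := by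
  rcases a with a | a
  · by_cases e : a ∈ S.H
    · simp only [Sum.elim_inl, if_pos e, Option.some.injEq, Sum.inl.injEq]
      exact ⟨fun j => ⟨j ▸ e, j⟩, And.right⟩
    · simp only [Sum.elim_inl, if_neg e, Sum.inl.injEq, reduceCtorEq, false_iff]
      exact fun j => e (j.2 ▸ j.1)
  · simp

theorem hd_none {a : A ⊕ B} : (S.job r n).hd a = none ↔ a ∈ S.sh :=
  Option.eq_none_iff_forall_ne_some.trans
    ⟨fun j x hx e => j x (hd_eq.2 ⟨hx, e⟩), fun j x e => j x (hd_eq.1 e).1 (hd_eq.1 e).2⟩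

theorem hw_eq : (S.job r n).hw = S.H :=
  Set.ext fun x => ⟨fun ⟨_, e⟩ => (hd_eq.1 e).1, fun e => ⟨.inl x, hd_eq.2 ⟨e, rfl⟩⟩⟩

theorem le_one {σ : Cel (A ⊕ B)} {s : A ⊕ B → ℝ} (hs : s ∈ (S.job r n).dom σ) {a : A}
    (ha : a ∈ S.H) : s (.inl a) ≤ 1 := hs.2 _ (by rw [hd_eq.2 ⟨ha, rfl⟩]; rfl)

namespace OK
variable (H : S.OK)
include H

/-- the wall parameters with fewer frozen walls (`fz' = ∅`: independent of the frozen lengths) -/
theorem th {fz' : Set A} (e : fz' ⊆ S.fz) : (S.job r n).Th S.sh (thS S.H fz' S.Tf) := by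
  have nf : ∀ a ∈ S.H, a ∉ S.fz := fun a ha => disjoint_left.1 H.dj ha
  have i1 : ∀ fz'' ⊆ S.fz, ∀ σ, ∀ s ∈ (S.job r n).dom σ,
      Sys.inf (thS S.H fz'' S.Tf s) = {a ∈ S.H | s (.inl a) = 1} := fun fz e σ s hs =>
    Set.ext fun a => by
      show thS _ _ _ _ _ = 1 ↔ _
      by_cases h1 : a ∈ fz
      · rw [thS_fz h1]
        exact iff_of_false (H.T a (e h1) _).2.ne fun j => nf a j.1 (e h1)
      by_cases h2 : a ∈ S.H
      · rw [thS_H h1 h2, rho_eq_one (le_one hs h2)]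
        exact (and_iff_right h2).symm
      · rw [thS_out h1 h2]
        exact iff_of_false zero_ne_one fun j => h2 j.1
  refine ⟨contDiff_thS H.Tf, fun σ hσ s hs => ⟨fun a => ?_, (H.cell σ hσ).mono fun a ha => ?_⟩,
    fun σ _ s hs => (i1 _ e σ s hs).trans (i1 _ le_rfl σ s hs).symm,
    ⟨1 / 2, by norm_num, fun a x j s l => ?_⟩, fun x s s' j => ?_⟩
  · by_cases h1 : a ∈ fz'
    · rw [thS_fz h1]; exact Ico_subset_Icc_self (H.T a (e h1) _)
    by_cases h2 : a ∈ S.H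
    · rw [thS_H h1 h2]; exact rho_mem (le_one hs h2)
    · simp [thS_out h1 h2]
  · by_cases h1 : a ∈ fz'
    · exact .inr (e h1)
    by_cases h2 : a ∈ S.H
    · refine .inl ⟨h2, ?_⟩
      rcases k : σ (.inl a) with _ | _ | _
      · rfl
      · exact (ha (by rw [thS_H h1 h2, hs.1 _ _ k]; exact rho_of_le le_rfl)).elim
      · exact (H.soft σ hσ a h2 k).elim
    · exact (ha (thS_out h1 h2)).elim
  · obtain ⟨h2, rfl⟩ := hd_eq.1 j
    rw [thS_H (fun k => nf x h2 (e k)) h2, rho_of_ge l]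
  · unfold thS
    split_ifs with h1 h2
    · exact congrArg _ (funext fun b => j _ (.inl fun _ _ => Sum.inr_ne_inl))
    · rw [j _ (.inr ⟨x, rfl, hd_eq.2 ⟨h2, rfl⟩⟩)]
    · rfl

theorem job (r n : ℕ) : (S.job r n).OK where
  down σ hσ b hb := H.down σ hσ b.1 b.2 ((S.job r n).mem_wb.1 hb).1 fun e =>
    (hd_none (r := r) (n := n)).1 (Option.isNone_iff_eq_none.1 (((S.job r n).mem_wb.1 hb).2 e))
  soft σ hσ a e := hd_none.2 fun x hx j => H.soft σ hσ x hx (j ▸ e)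
  inj a a' x e e' := (hd_eq.1 e).2.trans (hd_eq.1 e').2.symm
  sm := (H.uf.comp (Job.contDiff_comp _)).prodMk (contDiff_thS H.Tf)
  par := (H.th le_rfl).par
  inf σ hσ s hs x e := by
    have e : thS S.H S.fz S.Tf s x = 1 := e
    have h1 : x ∉ S.fz := fun j => (H.T x j _).2.ne (thS_fz j ▸ e)
    have h2 : x ∈ S.H := by_contra fun j => zero_ne_one (thS_out h1 j ▸ e)
    exact ⟨.inl x, hd_eq.2 ⟨h2, rfl⟩, (rho_eq_one (le_one hs h2)).1 (thS_H h1 h2 ▸ e)⟩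
  lin := ⟨7 / 8, by norm_num, fun a x j s l => by
    obtain ⟨h2, rfl⟩ := hd_eq.1 j
    have : (S.Θ s).2 x = s (.inl x) :=
      (thS_H (disjoint_left.1 H.dj h2) h2).trans (rho_of_ge (by linarith))
    exact ⟨this, fun p => (if_pos (H.mem x h2 p)).trans (swc_of_ge (this ▸ l))⟩⟩
  mem a x j := H.mem x (hd_eq.1 j).1
  tw w := w.elim
  co w := w.elim
  nb i := ⟨(H.nb i).1, (H.nb i).2.1⟩
  dj := H.dn
  ct := H.ct
  tc _ w := w.elim
  cc _ w := w.elim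
  xs := H.xs
  iso := H.iso
  ν a := by
    by_cases e : a ∈ S.m.1
    · simp only [if_pos e]
      exact contDiff_swc.comp (contDiff_pi.1 (contDiff_thS H.Tf) a)
    · simp only [if_neg e]; exact contDiff_const
  ν0 a s j := by
    by_cases e : a ∈ S.m.1
    · exact ⟨e, le_of_not_ge fun k => j ((if_pos e).trans (swc_of_le k))⟩
    · exact (j (if_neg e)).elim
  nk := H.nk

theorem loc (r n : ℕ) : (S.job r n).Loc S.sh where
  soft _ := hd_none.1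
  u _ _ j := congrArg S.uf (funext fun _ => j _ (.inl fun _ _ => Sum.inr_ne_inl))
  t := (H.th le_rfl).loc
  ν x s s' j := by
    have : (S.Θ s).2 x = (S.Θ s').2 x := (H.th le_rfl).loc x s s' j
    simp only [this]
  cc _ _ _ _ _ _ _ _ _ _ _ _ _ _ w := w.elim
  co _ _ _ _ _ _ _ _ _ _ _ _ w := w.elim
  bas w := w.elim
  nb i := (H.nb i).2.2

end OK
end Sk

end Crest.Agent.X212.Jb7
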