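import Crest.Agent.X212.Jb7.Defs
import Crest.Agent.X212.Wrd81.Apx

/-!
# X212 / Jb7 (helper7): the standard family is admissible, local and rich
-/

set_option autoImplicit false
set_option linter.unusedSectionVars false
noncomputable section
open scoped Manifold ContDiff Topology
open Set Function Filter Classical

namespace Crest.Agent.X212.Jb7
open An M Wrd81

/-! ### coefficients -/

section cg
variable {X : Type} [TopologicalSpace X] {A : Type} [Fintype A] {S : Sys X A}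
  {ρ π : Reg A} {k : ℕ} {t t' : A → ℝ}

variable (S) in
theorem contDiff_cg (ρ : Reg A) (k : ℕ) : ContDiff ℝ ∞ (cg S ρ k) := by
  refine (S.contDiff_cf ρ).mul (contDiff_prod fun a _ => ?_)
  by_cases h : a ∈ S.inn ρ
  · simp only [if_pos h]
    exact expNegInvGlue.contDiff.comp (contDiff_const.sub (contDiff_apply ℝ ℝ a))
  · simp only [if_neg h]; exact contDiff_const

theorem cg_ne_zero : cg S ρ k t ≠ 0 ↔ S.cf ρ t ≠ 0 ∧ ∀ a ∈ S.inn ρ, t a < 1 - 1 / (k + 2) := by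
  rw [cg, mul_ne_zero_iff, Finset.prod_ne_zero_iff]
  refine and_congr_right fun _ => ⟨fun h a ha => ?_, fun h a _ => ?_⟩
  · have := h a (Finset.mem_univ a)
    rw [if_pos ha, Ne, expNegInvGlue.zero_iff_nonpos] at this
    linarith
  · split_ifs with ha
    exacts [(expNegInvGlue.pos_of_pos (sub_pos.2 (h a ha))).ne', one_ne_zero]

theorem cg_congr (h1 : ∀ a ∈ Sys.bd ρ, t a = t' a) (h2 : ∀ a ∈ S.inn ρ, t a = t' a) :
    cg S ρ k t = cg S ρ k t' := by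
  rw [cg, cg, Sys.cf_congr h1 h2]
  exact congrArg _ (Finset.prod_congr rfl fun a _ => by
    split_ifs with ha
    exacts [by rw [h2 a ha], rfl])

theorem exists_cg (h : S.cf ρ t ≠ 0) : ∃ k, cg S ρ k t ≠ 0 := by
  have : ∀ᶠ k : ℕ in atTop, ∀ a ∈ S.inn ρ, t a < 1 - 1 / (k + 2) :=
    (eventually_all_finite (toFinite _)).2 fun a ha => by
      have h1 : Tendsto (fun k : ℕ => 1 - 1 / ((k : ℝ) + 2)) atTop (𝓝 (1 - 0)) :=
        tendsto_const_nhds.sub (tendsto_const_nhds.div_atTop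
          (tendsto_atTop_add_const_right _ _ tendsto_natCast_atTop_atTop))
      exact h1.eventually_const_lt (by simpa using (Sys.cf_ne_zero.1 h).2 a ha)
  exact this.exists.imp fun k hk => cg_ne_zero.2 ⟨h, hk⟩

/-- a piece is active -/
theorem piece_cf (ht : t ∈ S.Par) (h : S.Piece (Sys.inf t) π) : S.cf π t ≠ 0 :=
  Sys.cf_ne_zero.2 ⟨fun a ha => by rw [show t a = 1 from h.bd_subset ha]; exact one_ne_zero,
    fun a ha => lt_of_le_of_ne (ht.1 a).2 fun e => h.not_inn a e ha⟩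

variable [PreconnectedSpace X]

/-- a wall whose core meets an active region and whose parameter is not zero is an inner wall -/
theorem inn_of_meet (ht : t ∈ S.Par) (hρ : S.IsReg ρ) (hc : S.cf ρ t ≠ 0)
    {a : A} (ha : t a ≠ 0) (h : ¬Disjoint (S.U ρ) (S.w a).core) : a ∈ S.inn ρ := by
  rcases h0 : ρ a with _ | b
  · by_contra hi
    exact h ((hρ.outer h0 (fun a' ha' => ht.2 ha ((Sys.cf_ne_zero.1 hc).1 a' ha')
      (by rintro rfl; exact ha' h0)) hi).1.mono_right (S.w a).core_subset)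
  · exact (h (disjoint_left.2 fun x hx hx' => hx' b (hx a b h0))).elim

/-- the walls near whose breaking the coefficient vanishes -/
theorem cg_core (hρ : S.IsReg ρ) (k : ℕ) (H : Set A) : ∃ V : Set A, S.U ρ ⊆ (S.cores (H \ V))ᶜ ∧
    ∃ s₀ < (1 : ℝ), ∀ t ∈ S.Par, ∀ x ∈ V, s₀ ≤ t x → cg S ρ k t = 0 := by
  have k0 : (0 : ℝ) < 1 / (k + 2) := by positivity
  have k1 : (1 : ℝ) / (k + 2) < 1 := by
    rw [div_lt_one (by positivity)]; linarith [Nat.cast_nonneg (α := ℝ) k]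
  refine ⟨{x | ¬Disjoint (S.U ρ) (S.w x).core}, fun y hy hc => ?_, 1 - 1 / (k + 2), by linarith,
    fun t ht x hx l => by_contra fun c => ?_⟩
  · obtain ⟨a, ha, hc⟩ := mem_iUnion₂.1 hc
    exact ha.2 fun d => disjoint_left.1 d hy hc
  · obtain ⟨c1, c2⟩ := cg_ne_zero.1 c
    exact (c2 x (inn_of_meet ht hρ c1 (by linarith) hx)).not_ge l

/-- locality of the coefficient of a region that meets the piece `π` -/
theorem cg_loc (hρ : S.IsReg ρ) (ht : t ∈ S.Par) (ht' : t' ∈ S.Par) (e : Sys.inf t' = Sys.inf t)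
    (hπ : S.Piece (Sys.inf t) π) (h : ∀ a ∈ S.inn π, t a = t' a) {x : X} (h1 : x ∈ S.U ρ)
    (h2 : x ∈ S.U π) : cg S ρ k t = cg S ρ k t' := by
  have key : S.Sub ρ π → cg S ρ k t = cg S ρ k t' := fun s =>
    cg_congr (fun a ha => (s.bd_sub a ha).elim (fun j => by
      have : a ∈ Sys.inf t := hπ.bd_subset (show π a ≠ none from j ▸ ha)
      rw [show t a = 1 from this, show t' a = 1 from e.ge this]) (h a))
      fun a ha => h a (s.inn_sub ha)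
  by_cases c : cg S ρ k t = 0
  · by_cases c' : cg S ρ k t' = 0
    · rw [c, c']
    · exact key ((e ▸ hπ).sub_of_cf ht' hρ (cg_ne_zero.1 c').1 h2 h1)
  · exact key (hπ.sub_of_cf ht hρ (cg_ne_zero.1 c).1 h2 h1)

/-- an active region lies on one side of a broken wall -/
theorem side_ex (hρ : S.IsReg ρ) (ht : t ∈ S.Par) (hc : S.cf ρ t ≠ 0) {l : A} (hl : t l = 1) :
    ∃ b, S.U ρ ⊆ (S.w l).sd b := by
  obtain ⟨c1, c2⟩ := Sys.cf_ne_zero.1 hc
  rcases e : ρ l with _ | b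
  · exact (hρ.outer e (fun a ha => ht.2 (show t l ≠ 0 from hl ▸ one_ne_zero) (c1 a ha)
      (by rintro rfl; exact ha e)) fun j => (c2 l j).ne hl).2
  · exact ⟨b, fun x hx => hx l b e⟩

/-- it lies on the side `b` only if it is adjacent or has a boundary wall on that side -/
theorem side_of_cf [Nonempty X] (hρ : S.IsReg ρ) (ht : t ∈ S.Par) (hc : S.cf ρ t ≠ 0) {l : A}
    (hl : t l = 1) {b : Bool} (h0 : ρ l ≠ some b)
    (hb : ∀ a, a ≠ l → S.Cmp a l → (S.w a).band ⊆ (S.w l).sd (!b)) : S.U ρ ⊆ (S.w l).sd (!b) := by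
  obtain ⟨c1, c2⟩ := Sys.cf_ne_zero.1 hc
  have l0 : t l ≠ 0 := hl ▸ one_ne_zero
  rcases e : ρ l with _ | b'
  · have cm : ∀ a ∈ Sys.bd ρ, S.Cmp l a := fun a ha => ht.2 l0 (c1 a ha) (by rintro rfl; exact ha e)
    have ni : l ∉ S.inn ρ := fun j => (c2 l j).ne hl
    obtain ⟨-, b', s⟩ := hρ.outer e cm ni
    by_cases n : ∃ a b', ρ a = some b'
    · obtain ⟨a, b'', ha⟩ := n
      have al : a ≠ l := by rintro rfl; simp [e] at ha
      obtain ⟨x, hx⟩ := (S.w a).ne b''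
      rw [← (S.w l).sd_inj (s (hρ.adj a b'' ha hx))
        (hb a al (cm a (Sys.mem_bd_of ha)).symm hx.1)]
      exact s
    · exact (ni ⟨e, fun x _ a b' j => (n ⟨a, b', j⟩).elim, cm⟩).elim
  · have : b' = !b := by cases b <;> cases b' <;> simp_all
    exact fun x hx => this ▸ hx l b' e

end cg

variable {Wi : Type} {X : Mf 4} {A κ lam : Type} [Fintype A] [Fintype κ] [Fintype lam]
  [DecidableEq lam] {M : Mark X A κ} {W : World M} {N : ML M lam} {h : Type} {r n : ℕ}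

theorem z0_in (Ω : Set X.M) : TmIn X.I Ω (z0 : Tm X.M lam r n) :=
  ⟨swIn_nil.cons (t := .mul 0) (tf_zero Ω), _, _, rfl⟩

theorem z0_van (O : Set X.M) : (z0 : Tm X.M lam r n).Van O := ⟨0, [], rfl, fun _ _ => rfl⟩

theorem xi_mono {Ω Ω' : Set X.M} {ξ : Xi X.M lam r} (h : XiIn X.I Ω ξ) (e : Ω ⊆ Ω') :
    XiIn X.I Ω' ξ := by
  cases ξ
  exacts [trivial, AwIn.mono e h, ⟨h.1.mono e, h.2.1.mono e, h.2.2.1.mono e, h.2.2.2.1.mono e,
    h.2.2.2.2.mono e⟩]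

/-- a field term vanishes off its region -/
theorem van_of_in {Ω O : Set X.M} {τ : Tm X.M lam r n} (h : TmIn X.I Ω τ) (z : τ.Zc)
    (d : Disjoint Ω O) : τ.Van O := by
  have k : ∀ {V : Type} [Zero V] {f : X.M → V}, tsupport f ⊆ Ω → ∀ x ∈ O, f x = 0 :=
    fun e x hx => image_eq_zero_of_notMem_tsupport fun j => disjoint_left.1 d (e j) hx
  cases τ with
  | lin u =>
    obtain ⟨h1, f, w, rfl⟩ := h
    exact ⟨f, w, rfl, k (h1 _ List.mem_cons_self).sub⟩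
  | anti => exact .inl (k h.2.1.sub)
  | ad => exact k h.1.sub
  | adj => exact .inl (k h.2.2.1.sub)
  | _ => exact z.elim

namespace Sw
variable {ok : Reg A → Prop} {nb : h → Set X.M} (w : Sw X.M A h lam r n) {t t' : A → ℝ}

/-- the three kinds of indices, seen by the field equations -/
theorem cases_tw : (∃ ρ k, Val M ok ρ (w.tw M ok) ∧ w.co M ok = cg M.sys ρ k) ∨
    (∃ i a k, w.tw M ok = .cz i a k ∧ w.co M ok = 1) ∨ w.tw M ok = z0 ∧ w.co M ok = 0 := by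
  cases w with
  | fld ρ τ k =>
    by_cases v : Val M ok ρ τ
    · exact .inl ⟨ρ, k, by simpa only [tw, if_pos v] using v, if_pos v⟩
    · exact .inr (.inr ⟨if_neg v, if_neg v⟩)
  | row i a k => exact .inr (.inl ⟨i, a, k, rfl, rfl⟩)
  | cut => exact .inr (.inr ⟨rfl, rfl⟩)

/-- the two kinds of indices, seen by the cut `i` -/
theorem cases_tc (i : h) : (∃ ρ k, ValC M nb i ρ (w.tc M nb i) ∧
    w.cc M nb i = cg M.sys ρ k) ∨ w.tc M nb i = c0 ∧ w.cc M nb i = 0 := by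
  cases w with
  | cut j ρ τ k =>
    by_cases v : j = i ∧ ValC M nb i ρ τ
    · exact .inl ⟨ρ, k, by simpa only [tc, if_pos v] using v.2, if_pos v⟩
    · exact .inr ⟨if_neg v, if_neg v⟩
  | _ => exact .inr ⟨rfl, rfl⟩

end Sw

variable {Λ : Lns W N} {A' : Type} [Fintype A'] [DecidableEq A'] [Fintype h]
  {J : Job Wi Λ A' h r n} {ok : Reg A → Prop} {sh : Set A'} {th : (A' → ℝ) → A → ℝ}

theorem std_ok (H : J.Th sh th) : J.TOK (Tr.std M ok J.nb th) := by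
  have := M.con
  obtain ⟨s₁, h1, h2⟩ := H.lin
  have key : ∀ ρ k, M.sys.IsReg ρ → ∃ V : Set A, M.sys.U ρ ⊆ (M.sys.cores (J.hw \ V))ᶜ ∧
      ∃ s₀ < (1 : ℝ), ∀ σ ∈ J.𝒦, ∀ s ∈ J.dom σ, ∀ a x, J.hd a = some x → x ∈ V → s₀ ≤ s a →
        cg M.sys ρ k (th s) = 0 := fun ρ k hρ =>
    let ⟨V, a1, s₀, a2, a3⟩ := cg_core hρ k J.hw
    ⟨V, a1, max s₀ s₁, max_lt a2 h1, fun σ hσ s hs a x ha hx l => a3 _ (H.par σ hσ s hs) x hx
      (h2 a x ha s ((le_max_right _ _).trans l) ▸ (le_max_left _ _).trans l)⟩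
  refine ⟨fun w => ?_, fun w => ?_, fun i w => ?_, fun i w => ?_⟩
  · rcases w.cases_tw (M := M) (ok := ok) with ⟨ρ, k, v, e⟩ | ⟨i, a, k, e, -⟩ | ⟨e, -⟩
    · obtain ⟨V, a1, a2⟩ := key ρ k v.reg
      exact ⟨V, v.tm.mono a1, by simpa only [Tr.std, e] using a2⟩
    · exact ⟨∅, by simp only [Tr.std, e]; trivial, 0, one_pos, fun _ _ _ _ _ _ _ j => j.elim⟩
    · exact ⟨∅, by simp only [Tr.std, e]; exact z0_in _, 0, one_pos, fun _ _ _ _ _ _ _ j => j.elim⟩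
  · show ContDiff ℝ ∞ (w.co M ok ∘ th)
    rcases w.cases_tw (M := M) (ok := ok) with ⟨ρ, k, -, e⟩ | ⟨i, a, k, -, e⟩ | ⟨-, e⟩ <;> rw [e]
    exacts [(contDiff_cg _ ρ k).comp H.sm, contDiff_const, contDiff_const]
  · rcases w.cases_tc (M := M) (nb := J.nb) i with ⟨ρ, k, v, e⟩ | ⟨e, -⟩
    · obtain ⟨V, a1, a2⟩ := key ρ k v.reg
      exact ⟨V, xi_mono v.xi a1, by simpa only [Tr.std, e] using a2⟩
    · exact ⟨∅, by simp only [Tr.std, e]; trivial, 0, one_pos, fun _ _ _ _ _ _ _ j => j.elim⟩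
  · show ContDiff ℝ ∞ (w.cc M J.nb i ∘ th)
    rcases w.cases_tc (M := M) (nb := J.nb) i with ⟨ρ, k, -, e⟩ | ⟨-, e⟩ <;> rw [e]
    exacts [(contDiff_cg _ ρ k).comp H.sm, contDiff_const]

theorem std_loc (H : J.Th sh th) (hn : ∀ i, (J.nb i).Nonempty) :
    J.TLoc sh (Tr.std M ok J.nb th) := by
  have := M.con
  have key : ∀ σ ∈ J.𝒦, ∀ s ∈ J.dom σ, ∀ s' ∈ J.dom σ, ∀ c : M.Cl, Sys.inf (J.Θ s).2 = c.1 →
      Sys.inf (J.Θ s').2 = c.1 → ∀ P : Set (Reg A), (∀ π ∈ P, M.sys.Piece c.1 π) →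
      J.Ag sh (⋃ π ∈ P, M.sys.inn π) s s' → ∀ ρ k, M.sys.IsReg ρ → ∀ x ∈ M.sys.U ρ,
      x ∈ ⋃ π ∈ P, M.sys.U π → cg M.sys ρ k (th s) = cg M.sys ρ k (th s') :=
    fun σ hσ s hs s' hs' c e e' P hP g ρ k hρ x h1 h2 => by
      obtain ⟨π, h3, h2⟩ := mem_iUnion₂.1 h2
      have i1 := (H.inf σ hσ s hs).trans e
      exact cg_loc hρ (H.par σ hσ s hs) (H.par σ hσ s' hs')
        (((H.inf σ hσ s' hs').trans e').trans i1.symm) (i1 ▸ hP π h3)
        (fun a ha => H.loc a s s' fun b j => g b (j.imp_right fun ⟨x, j1, j2⟩ =>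
          ⟨x, mem_biUnion h3 (j1 ▸ ha), j2⟩)) h1 h2
  refine ⟨fun σ hσ s hs s' hs' c e e' P hP g i hi w => ?_,
    fun σ hσ s hs s' hs' c e e' P hP g w => ?_, fun w => ?_⟩
  · show w.cc M J.nb i _ = w.cc M J.nb i _
    rcases w.cases_tc (M := M) (nb := J.nb) i with ⟨ρ, k, v, j⟩ | ⟨-, j⟩ <;> rw [j]
    · obtain ⟨x, hx⟩ := hn i
      exact key σ hσ s hs s' hs' c e e' P hP g ρ k v.reg x (v.nb hx) (hi hx)
    · rfl
  · show w.co M ok _ = w.co M ok _ ∨ (w.tw M ok).Van _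
    rcases w.cases_tw (M := M) (ok := ok) with ⟨ρ, k, v, j⟩ | ⟨i, a, k, -, j⟩ | ⟨-, j⟩ <;> rw [j]
    · by_cases d : Disjoint (M.sys.U ρ) (⋃ π ∈ P, M.sys.U π)
      · exact .inr (van_of_in v.tm v.zc d)
      · obtain ⟨x, h1, h2⟩ := not_disjoint_iff.1 d
        exact .inl (key σ hσ s hs s' hs' c e e' P hP g ρ k v.reg x h1 h2)
    exacts [.inl rfl, .inl rfl]
  · show Bas (w.tw M ok)
    rcases w.cases_tw (M := M) (ok := ok) with ⟨ρ, k, v, -⟩ | ⟨i, a, k, j, -⟩ | ⟨j, -⟩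
    exacts [v.bas, j ▸ trivial, j ▸ trivial]

section rich
variable {s : A' → ℝ} {π : Reg A}

theorem std_richS : (J.put (Tr.std M ok J.nb th)).RichS s := fun i a k =>
  ⟨.row i a k, rfl, one_ne_zero, fun _ => rfl, fun _ => smul_zero _⟩

theorem std_richT (p1 : ok π) (p2 : M.sys.IsReg π) (p3 : M.sys.cf π (th s) ≠ 0) :
    (J.put (Tr.std M ok J.nb th)).RichT s π := fun τ h1 h2 h3 => by
  obtain ⟨k, hk⟩ := exists_cg p3
  have v : Val M ok π τ := ⟨p1, p2, h1, h2, h3⟩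
  exact ⟨.fld π τ k, if_pos v, by simpa only [Tr.std, Sw.co, if_pos v] using hk, fun _ => rfl,
    fun _ => smul_zero _⟩

theorem std_richC (p2 : M.sys.IsReg π) (p3 : M.sys.cf π (th s) ≠ 0) {i : h}
    (hi : J.nb i ⊆ M.sys.U π) : (J.put (Tr.std M ok J.nb th)).RichC s π i := fun t ht => by
  obtain ⟨k, hk⟩ := exists_cg p3
  have v : i = i ∧ ValC M J.nb i π t := ⟨rfl, p2, hi, ht⟩
  refine ⟨.cut i π t k, if_pos v, ?_, rfl, fun j e => ?_, fun _ => smul_zero _⟩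
  · exact (congrFun (if_pos v : Sw.cc M J.nb i (.cut (n := n) i π t k) = _) _).trans_ne hk
  · exact congrFun (if_neg fun v => e v.1.symm : Sw.cc M J.nb j (.cut (n := n) i π t k) = _) _

/-- pieces are active -/
theorem _root_.Crest.Agent.X212.An.Job.Th.cf (H : J.Th sh th) {σ : Cel A'} (hσ : σ ∈ J.𝒦)
    (hs : s ∈ J.dom σ) (h : M.sys.Piece (Sys.inf (J.Θ s).2) π) : M.sys.cf π (th s) ≠ 0 :=
  piece_cf (H.par σ hσ s hs) ((H.inf σ hσ s hs).symm ▸ h)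

end rich

/-- richness at a parameter at which the regions of `P` are active -/
theorem std_at {s : A' → ℝ} {P : Set (Reg A)}
    (hP : ∀ π ∈ P, ok π ∧ M.sys.IsReg π ∧ M.sys.cf π (th s) ≠ 0) :
    J.TAt (Tr.std M ok J.nb th) s P :=
  ⟨fun π a => std_richT (hP π a).1 (hP π a).2.1 (hP π a).2.2, std_richS,
    fun π a _ => std_richC (hP π a).2.1 (hP π a).2.2⟩

theorem std_rich (H : J.Th sh th) {σ : Cel A'} (hσ : σ ∈ J.𝒦) (c : M.Cl) :
    J.TRich (Tr.std M ok J.nb th) σ c {π | M.sys.Piece c.1 π ∧ ok π} := fun _ hs e =>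
  std_at fun _ hπ => ⟨hπ.2, hπ.1.toIsReg, H.cf hσ (J.cl_dom hs) (e ▸ hπ.1)⟩

section van
variable {nb : h → Set X.M} {s : A' → ℝ} {l : A} {b : Bool} (ht : th s ∈ M.sys.Par)
  (hl : th s l = 1) {w : Sw X.M A h lam r n}
include ht hl

/-- no active field term on the forbidden side of a broken wall -/
theorem std_van (h0 : ∀ ρ, ok ρ → ρ l ≠ some b)
    (hb : ∀ a, a ≠ l → M.sys.Cmp a l → (M.sys.w a).band ⊆ (M.sys.w l).sd (!b))
    (e : (Tr.std M ok nb th).co w s ≠ 0) :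
    TmIn X.I ((M.sys.w l).sd (!b)) ((Tr.std M ok nb th).tw w) ∧
      (((Tr.std M ok nb th).tw w).Zc ∨ ∃ i a k, (Tr.std M ok nb th).tw w = .cz i a k) := by
  have := M.con
  rcases w.cases_tw (M := M) (ok := ok) with ⟨ρ, k, v, j⟩ | ⟨i, a, k, j, -⟩ | ⟨-, j⟩
  · exact ⟨v.tm.mono (side_of_cf v.reg ht (cg_ne_zero.1 ((congrFun j _).symm.trans_ne e)).1 hl
      (h0 ρ v.ok) hb), .inl v.zc⟩
  · exact ⟨by simp only [Tr.std, j]; trivial, .inr ⟨i, a, k, j⟩⟩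
  · exact (e (congrFun j _)).elim

/-- an active term of a cut lies on the side of the cut -/
theorem std_vanC {i : h} {x : X.M} (h1 : x ∈ nb i) (h2 : x ∈ (M.sys.w l).sd b)
    (e : (Tr.std (n := n) M ok nb th).cc i w s ≠ 0) :
    XiIn X.I ((M.sys.w l).sd b) ((Tr.std M ok nb th).tc i w).ξ := by
  have := M.con
  rcases w.cases_tc (M := M) (nb := nb) i with ⟨ρ, k, v, j⟩ | ⟨-, j⟩
  · obtain ⟨b', s⟩ := side_ex v.reg ht (cg_ne_zero.1 ((congrFun j _).symm.trans_ne e)).1 hl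
    exact xi_mono v.xi ((M.sys.w l).sd_inj (s (v.nb h1)) h2 ▸ s)
  · exact (e (congrFun j _)).elim

end van

/-! ### change of parameters between jobs over one mark -/

section rep
variable {W₁ W₂ : Type} {W' : World M} {N' : ML M lam} {Λ' : Lns W' N'} {A'' : Type} [Fintype A'']
  [DecidableEq A''] (J' : Job W₁ Λ' A'' h r n) (J : Job Wi Λ A' h r n)

/-- the parameters of `J'` are mapped to parameters of `J`; `J` may have more hard walls -/
structure Rep (sh' : Set A'') (sh : Set A') (g : (A'' → ℝ) → A' → ℝ) : Prop where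
  sm : ContDiff ℝ ∞ g
  dom : ∀ σ' ∈ J'.𝒦, ∃ σ ∈ J.𝒦, ∀ s ∈ J'.dom σ', g s ∈ J.dom σ
  hd : ∀ a' x, J'.hd a' = some x → ∃ a, J.hd a = some x ∧ ∀ s, g s a = s a'
  inf : ∀ σ' ∈ J'.𝒦, ∀ s ∈ J'.dom σ', Sys.inf (J'.Θ s).2 = Sys.inf (J.Θ (g s)).2
  nb : J'.nb = J.nb
  ag : ∀ σ' ∈ J'.𝒦, ∀ s ∈ J'.dom σ', ∀ s' ∈ J'.dom σ', ∀ V, J'.Ag sh' V s s' →
    J.Ag sh V (g s) (g s')

variable {J' J} {sh' : Set A''} {g : (A'' → ℝ) → A' → ℝ} (m : Rep J' J sh' sh g)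
  {t : Tr W₂ X.M (lam ⊕ lam) h A' r n}
include m

theorem Rep.tok (k : J.TOK t) : J'.TOK (t.rep g) := by
  have e : ∀ V, (M.sys.cores (J.hw \ V))ᶜ ⊆ (M.sys.cores (J'.hw \ V))ᶜ := fun V =>
    compl_subset_compl.2 (biUnion_subset_biUnion_left (sdiff_subset_sdiff_left
      fun x ⟨a, ha⟩ => (m.hd a x ha).imp fun _ => And.left))
  have key : ∀ {V : Set A} {f : (A' → ℝ) → ℝ}, (∃ s₀ < (1 : ℝ), ∀ σ ∈ J.𝒦, ∀ s ∈ J.dom σ,
      ∀ a x, J.hd a = some x → x ∈ V → s₀ ≤ s a → f s = 0) → ∃ s₀ < (1 : ℝ), ∀ σ ∈ J'.𝒦,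
      ∀ s ∈ J'.dom σ, ∀ a x, J'.hd a = some x → x ∈ V → s₀ ≤ s a → f (g s) = 0 := fun c =>
    c.imp fun _ c => ⟨c.1, fun σ hσ s hs a x d j l =>
      let ⟨σ₀, a1, a2⟩ := m.dom σ hσ; let ⟨b, b1, b2⟩ := m.hd a x d
      c.2 σ₀ a1 _ (a2 s hs) b x b1 j ((b2 s).symm ▸ l)⟩
  exact ⟨fun w => (k.tw w).imp fun V c => ⟨c.1.mono (e V), key c.2⟩, fun w => (k.co w).comp m.sm,
    fun i w => (k.tc i w).imp fun V c => ⟨xi_mono c.1 (e V), key c.2⟩,
    fun i w => (k.cc i w).comp m.sm⟩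

theorem Rep.tloc (k : J.TLoc sh t) : J'.TLoc sh' (t.rep g) :=
  ⟨fun σ a s b s' c d e f P i j l o => let ⟨σ₀, a1, a2⟩ := m.dom σ a
      k.cc σ₀ a1 _ (a2 s b) _ (a2 s' c) d ((m.inf σ a s b).symm.trans e)
        ((m.inf σ a s' c).symm.trans f) P i (m.ag σ a s b s' c _ j) l (m.nb ▸ o),
    fun σ a s b s' c d e f P i j => let ⟨σ₀, a1, a2⟩ := m.dom σ a
      k.co σ₀ a1 _ (a2 s b) _ (a2 s' c) d ((m.inf σ a s b).symm.trans e)
        ((m.inf σ a s' c).symm.trans f) P i (m.ag σ a s b s' c _ j), k.bas⟩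

end rep

end Crest.Agent.X212.Jb7
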