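import Crest.Agent.X212.Ins26.Defs
import Crest.Agent.X212.Jb7.Std
import Crest.Agent.X212.Jb7.Ops

/-!
# X212 / Jb7 (helper7): LEAF EX.  The skeleton of a family; the standard family of a scene.
-/

set_option autoImplicit false
set_option linter.unusedSectionVars false
noncomputable section
open scoped Manifold ContDiff Topology
open Set Function Filter

namespace Crest.Agent.X212.Jb7
open An M G75 Wrd81 Ins26
open Br55 (NC)

variable {κ lam : Type} [Fintype κ] [Fintype lam] [DecidableEq lam] {Lm : LM κ lam} {S : Scene Lm}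

/-! ### cells -/

theorem cel_none {τ : Finset S.A} {o : Option Bool} {a : S.A} : cel τ o (.inl a) = none ↔ a ∈ τ := by
  by_cases e : a ∈ τ <;> simp [cel, e]

theorem cel_ne (τ : Finset S.A) (o : Option Bool) (a : S.A) : cel τ o (.inl a) ≠ some true := by
  by_cases e : a ∈ τ <;> simp [cel, e]

theorem cel_up_inl (τ : Finset S.A) (o : Option Bool) (a : S.A) :
    update (cel τ o) (.inl a) (some false) = cel (τ.erase a) o := by
  funext x
  rcases x with x | x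
  · by_cases e : x = a
    · simp [cel, e]
    · simp [cel, e]
  · simp [cel]

theorem cel_up_inr (τ : Finset S.A) (o o' : Option Bool) (u : Unit) :
    update (cel τ o) (.inr u) o' = cel τ o' := by
  funext x
  rcases x with x | x <;> simp [cel]

/-! ### the skeleton -/

/-- the wall parameters lie in the cube complex -/
theorem Sk.par {X : Mf 4} {A B h : Type} [Fintype A] [DecidableEq A] [Fintype B] [DecidableEq B]
    [Fintype h] {M : Mark X A κ} {W : World M} {N : ML M lam} {Λ : Lns W N} {S : Sk Λ B h} {r n : ℕ}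
    {σ : Cel (A ⊕ B)} {s : A ⊕ B → ℝ} (hs : s ∈ (S.job r n).dom σ) {fz : Set A}
    (T : ∀ a ∈ fz, ∀ s, S.Tf a s ∈ Ico (0 : ℝ) 1) (soft : ∀ a ∈ S.H, σ (.inl a) ≠ some true)
    (cell : M.sys.Cell ({a ∈ S.H | σ (.inl a) = none} ∪ fz)) : thS S.H fz S.Tf s ∈ M.sys.Par := by
  refine ⟨fun a => ?_, cell.mono fun a ha => ?_⟩
  · by_cases h1 : a ∈ fz
    · rw [thS_fz h1]; exact Ico_subset_Icc_self (T a h1 _)
    by_cases h2 : a ∈ S.H
    · rw [thS_H h1 h2]; exact rho_mem (Sk.le_one hs h2)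
    · simp [thS_out h1 h2]
  · by_cases h1 : a ∈ fz
    · exact .inr h1
    by_cases h2 : a ∈ S.H
    · refine .inl ⟨h2, ?_⟩
      rcases k : σ (.inl a) with _ | _ | _
      · rfl
      · exact (ha (by rw [thS_H h1 h2, hs.1 _ _ k]; exact rho_of_le le_rfl)).elim
      · exact (soft a h2 k).elim
    · exact (ha (thS_out h1 h2)).elim

variable {j N : ℕ}

/-- what makes the skeletons of a family jobs -/
structure Pre (F : Fam S j N) : Prop where
  X : Disjoint F.X S.fz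
  uf : ContDiff ℝ ∞ F.uf
  Tf : ∀ a, ContDiff ℝ ∞ (F.Tf a)
  T : ∀ a ∈ S.fz, ∀ u, F.Tf a u ∈ Ico (0 : ℝ) 1
  mem : ∀ a ∈ hard S F.X, ¬S.M.pin a → a ∈ F.m.1
  cell : ∀ i, ∀ σ' ∈ F.𝒦 i, ∃ τ o, σ' = cel τ o ∧ ↑τ ⊆ hard S F.X ∧ τ ∈ S.K i
  er : ∀ i τ o, cel τ o ∈ F.𝒦 i → ∀ a ∈ τ, cel (τ.erase a) o ∈ F.𝒦 i
  sf : ∀ i τ, cel τ none ∈ F.𝒦 i → ∀ b, cel τ (some b) ∈ F.𝒦 i

theorem hard_dj (h : S.OK) {X : Finset S.A} (hX : Disjoint X S.fz) :
    Disjoint (hard S X) ↑S.fz := disjoint_left.2 fun a ha k =>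
  ha.elim (h.fz a k).1 fun e => e.elim (h.fz a k).2.1 fun e => Finset.disjoint_left.1 hX e k

/-- **the skeleton of every line is a job** -/
theorem Pre.sk {F : Fam S j N} (H : Pre F) (h : S.OK) (hc : CutOK Lm) (i : S.L) : (F.sk i).OK := by
  have T : ∀ a ∈ (F.sk i).fz, ∀ s, (F.sk i).Tf a s ∈ Ico (0 : ℝ) 1 := fun a ha s => H.T a ha _
  have soft : ∀ σ ∈ F.𝒦 i, ∀ a ∈ (F.sk i).H, σ (.inl a) ≠ some true := fun σ hσ a _ => by
    obtain ⟨τ, o, rfl, -⟩ := H.cell i σ hσ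
    exact cel_ne τ o a
  have cell : ∀ σ ∈ F.𝒦 i, S.M.sys.Cell ({a ∈ (F.sk i).H | σ (.inl a) = none} ∪ (F.sk i).fz) :=
      fun σ hσ => by
    obtain ⟨τ, o, rfl, -, k⟩ := H.cell i σ hσ
    exact (h.cell i τ k).1.mono (union_subset_union_left _ fun a ha => cel_none.1 ha.2)
  refine ⟨hard_dj h H.X, H.uf.comp (contDiff_apply ℝ ℝ ()),
    fun a => (H.Tf a).comp (contDiff_apply ℝ ℝ ()), T, H.mem, fun σ hσ a b e k => ?_, soft, cell,
    fun l => h.nb_ok l hc i, h.nb_dj, fun σ hσ s hs c e l d =>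
      h.ct_ok l hc i _ _ c (Sk.par hs T (soft σ hσ) (cell σ hσ)) e d,
    (Ink3.xg0 Empty (S.N i)).ok, (Ink3.xg0 Empty (S.N i)).iso,
    (Ink3.xg0 Empty (S.N i)).isNk _ _⟩
  obtain ⟨τ, o, rfl, p, -⟩ := H.cell i σ hσ
  rcases a with a | u
  · have ha := cel_none.1 e
    cases b
    · rw [cel_up_inl]; exact H.er i τ o hσ a ha
    · exact (k rfl a (p ha) rfl).elim
  · obtain rfl : o = none := e
    rw [cel_up_inr]; exact H.sf i τ hσ b

theorem nb_ne (l : S.ls) : (S.nb l).Nonempty := ((S.M.sys.w l).ne false).mono inter_subset_right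

/-- another lens lies outside -/
theorem nb_out (h : S.OK) {l l' : S.ls} (e : l' ≠ l) : S.nb l' ⊆ (S.M.sys.w l).sd true := fun x hx =>
  have k := disjoint_left.1 (h.lsd l' l'.2 l l.2 (Subtype.coe_injective.ne e)) (.inl hx)
  (((S.M.sys.w l).mem_cases true x).resolve_right fun j =>
    j.elim (fun j => k (.inr ((S.M.sys.w l).core_subset j))) fun j => k (.inl j))

/-! ### the standard terms -/

variable (S) in
/-- regions that are not inside a lens wall -/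
def okL (ρ : Reg S.A) : Prop := ∀ l ∈ S.ls, ρ l ≠ some false

variable (S) in
/-- the wall parameters seen by the standard terms -/
abbrev thX (X : Finset S.A) : (S.A ⊕ Unit → ℝ) → S.A → ℝ := thS (hard S X) ∅ 0

variable (S) in
/-- the standard terms of a scene -/
abbrev stdT (X : Finset S.A) (r n : ℕ) :
    Tr (Sw S.X.M S.A S.ls (lam ⊕ lam) r n) S.X.M (lam ⊕ lam) S.ls (S.A ⊕ Unit) r n :=
  Tr.std S.M (okL S) S.nb (thX S X)

section std
variable {F : Fam S j N} {i : S.L} (H : (F.sk i).OK) {r n : ℕ}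
include H

theorem th_X : ((F.sk i).job r n).Th (F.sk i).sh (thX S F.X) := by
  have e : thX S F.X = thS (F.sk i).H ∅ (F.sk i).Tf := by
    funext s a; simp only [thX, thS, mem_empty_iff_false, if_false]
  exact e ▸ H.th (empty_subset _)

theorem stdT_ok : ((F.sk i).job r n).TOK (stdT S F.X r n) := std_ok (th_X H)

theorem stdT_loc : ((F.sk i).job r n).TLoc (F.sk i).sh (stdT S F.X r n) := std_loc (th_X H) nb_ne

variable {σ : Cel (S.A ⊕ Unit)} (hσ : σ ∈ F.𝒦 i) {s : S.A ⊕ Unit → ℝ} (hs : s ∈ Job.cl σ)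
include hσ hs

/-- the field `rich` -/
theorem stdT_rich {c : S.M.Cl} (e : Sys.inf ((F.sk i).Θ s).2 = c.1) :
    let J := ((F.sk i).job r n).put (stdT S F.X r n)
    J.RichS s ∧ ∀ π, S.M.sys.Piece c.1 π → (okL S π → J.RichT s π) ∧
      ∀ l, S.nb l ⊆ S.M.sys.U π → J.RichC s π l :=
  ⟨std_richS, fun _ p =>
    have k := (th_X H (r := r) (n := n)).cf hσ (Job.cl_dom _ hs) (e ▸ p)
    ⟨fun o => std_richT o p.toIsReg k, fun _ => std_richC (J := (F.sk i).job r n) p.toIsReg k⟩⟩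

/-- the field `van` -/
theorem stdT_van (h : S.OK) (l : S.ls) (e : s (.inl l) = 1) (w) :
    ((stdT S F.X r n).co w s ≠ 0 → TmIn S.X.I ((S.M.sys.w l).sd true) ((stdT S F.X r n).tw w)) ∧
    ∀ l' ≠ l, (stdT S F.X r n).cc l' w s ≠ 0 →
      XiIn S.X.I ((S.M.sys.w l).sd true) ((stdT S F.X r n).tc l' w).ξ := by
  have ht := (th_X H (r := r) (n := n)).par σ hσ s (Job.cl_dom _ hs)
  have hl : thX S F.X s l = 1 :=
    (thS_H (notMem_empty _) (.inr (.inl l.2))).trans ((rho_eq_one e.le).2 e)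
  exact ⟨fun k => (std_van (b := false) ht hl (fun ρ o => o l l.2) (h.lsi l l.2) k).1,
    fun l' k => let ⟨_, hx⟩ := nb_ne l'; std_vanC ht hl hx (nb_out h k hx)⟩

end std

/-! ### the standard family -/

variable (S j N) in
/-- the standard family over the faces of the cells `C` -/
@[reducible] def exF (D : S.Dat) (X : Finset S.A) (m : S.M.Cl) (n₀ : ℤ)
    (C : S.L → Set (Finset S.A)) (T : ℝ) : Fam S j N where
  D := D
  Wi := Sw S.X.M S.A S.ls (lam ⊕ lam) (j + 1 + N) N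
  X := X
  n₀ := n₀
  uf := 0
  Tf _ _ := max T 0
  m := m
  𝒦 i := {σ' | ∃ σ ∈ C i, ∃ τ ⊆ σ, σ' = cel τ (some false)}
  t _ := stdT S X _ _

theorem cel_eq {τ τ' : Finset S.A} {o o' : Option Bool} (e : cel τ o = cel τ' o') :
    τ = τ' ∧ o = o' :=
  ⟨Finset.ext fun a => by rw [← cel_none (o := o), e, cel_none], congrFun e (.inr ())⟩

section ex
variable {D : S.Dat} {X : Finset S.A} {m : S.M.Cl} {n₀ : ℤ} {C : S.L → Set (Finset S.A)} {T : ℝ}
  (h : S.OK) (hX : Disjoint X S.fz) (hm : ∀ a ∈ hard S X, ¬S.M.pin a → a ∈ m.1)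
  (hC : ∀ i, ∀ σ ∈ C i, σ ∈ S.K i ∧ NC S i σ ∧ ↑σ ⊆ hard S X ∧ n₀ + σ.card ≤ 1) (hT : T < 1)
include h hX hm hC hT

theorem exF_pre : Pre (exF S j N D X m n₀ C T) where
  X := hX
  uf := contDiff_const
  Tf _ := contDiff_const
  T _ _ _ := ⟨le_max_right _ _, max_lt hT one_pos⟩
  mem := hm
  cell i _ := fun ⟨σ, a, τ, b, e⟩ => ⟨τ, _, e, (Finset.coe_subset.2 b).trans (hC i σ a).2.2.1,
    h.down i σ (hC i σ a).1 τ b⟩
  er _ _ _ := fun ⟨σ, a, _, b, e⟩ x _ => by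
    obtain ⟨rfl, rfl⟩ := cel_eq e
    exact ⟨σ, a, _, (Finset.erase_subset x _).trans b, rfl⟩
  sf _ _ := fun ⟨_, _, _, _, e⟩ => nomatch (cel_eq e).2

theorem exF_ok (hc : CutOK Lm) : (exF S j N D X m n₀ C T).OK T :=
  have H := (exF_pre (j := j) (N := N) (D := D) h hX hm hC hT).sk h hc
  { Tf := fun _ _ _ => ⟨le_max_left _ _, max_lt hT one_pos⟩
    ok := fun i _ => Job.put_ok ((H i).job _ _) (stdT_ok (H i))
    loc := fun i _ => Job.put_loc ((H i).loc _ _) (stdT_loc (H i))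
    cell := fun i _ ⟨σ, a, τ, b, e⟩ => ⟨τ, _, e, (Finset.coe_subset.2 b).trans (hC i σ a).2.2.1,
      σ, (hC i σ a).1, b, (hC i σ a).2.1, by simpa [Ins26.sf] using (hC i σ a).2.2.2⟩
    rich := fun i _ hσ _ hs _ e => stdT_rich (H i) hσ hs e
    van := fun i _ hσ _ hs l e => stdT_van (H i) hσ hs h l e
    twin := fun _ _ _ _ _ _ _ _ _ => ⟨⟨rfl, fun _ => rfl⟩, fun _ _ => ⟨rfl, fun _ => rfl⟩⟩ }

end ex

/-- **LEAF EX** -/
theorem ex (hc : CutOK Lm) : ExStmt Lm := fun S j N D X m n₀ C h hX hm hC T hT =>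
  ⟨exF S j N D X m n₀ C T, exF_ok h hX hm hC hT hc, rfl, rfl, rfl, rfl, rfl, rfl,
    fun _ σ a => ⟨σ, a, σ, le_rfl, rfl⟩⟩

end Crest.Agent.X212.Jb7
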