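import Crest.Agent.X212.An.Prt

/-!
# X212 / Jb7 (helper7): families of terms, the standard family, skeleton jobs.  Definitions.
-/

set_option autoImplicit false
set_option linter.unusedSectionVars false
noncomputable section
open scoped Manifold ContDiff Topology
open Set Function Filter Classical

namespace Crest.Agent.X212.Jb7
open An M Wrd81 Nd18

/-- `cf`, switched off before an inner wall breaks -/
def cg {X : Type} [TopologicalSpace X] {A : Type} [Fintype A] (S : Sys X A) (ρ : Reg A) (k : ℕ)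
    (t : A → ℝ) : ℝ :=
  S.cf ρ t * ∏ a, if a ∈ S.inn ρ then expNegInvGlue (1 - 1 / (k + 2) - t a) else 1

/-- the indices of the standard terms -/
inductive Sw (X A h lam : Type) (r n : ℕ) : Type
  | fld (ρ : Reg A) (τ : Tm X lam r n) (k : ℕ)
  | row (i : Fin n) (a : ℂ) (k : Fin r)
  | cut (i : h) (ρ : Reg A) (t : Tc X lam r) (k : ℕ)

/-- the zero term -/
abbrev z0 {X lam : Type} {r n : ℕ} : Tm X lam r n := .lin [.mul 0]

/-- the zero term of a cut -/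
abbrev c0 {X lam : Type} {r : ℕ} : Tc X lam r := ⟨0, 0, 0, .one⟩

/-- a family of terms -/
structure Tr (Wi X lam h A' : Type) (r n : ℕ) : Type where
  tw : Wi → Tm X lam r n
  co : Wi → (A' → ℝ) → ℝ
  tc : h → Wi → Tc X lam r
  cc : h → Wi → (A' → ℝ) → ℝ

namespace Tr
variable {W₀ W₁ X lam h A' A'' : Type} {r n : ℕ}

/-- no terms -/
def nil : Tr Empty X lam h A' r n :=
  ⟨Empty.elim, Empty.elim, fun _ => Empty.elim, fun _ => Empty.elim⟩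

/-- both families -/
def sum (t₀ : Tr W₀ X lam h A' r n) (t₁ : Tr W₁ X lam h A' r n) : Tr (W₀ ⊕ W₁) X lam h A' r n :=
  ⟨Sum.elim t₀.tw t₁.tw, Sum.elim t₀.co t₁.co, fun i => Sum.elim (t₀.tc i) (t₁.tc i),
    fun i => Sum.elim (t₀.cc i) (t₁.cc i)⟩

/-- a common factor -/
def mul (χ : (A' → ℝ) → ℝ) (t : Tr W₀ X lam h A' r n) : Tr W₀ X lam h A' r n :=
  ⟨t.tw, fun w s => χ s * t.co w s, t.tc, fun i w s => χ s * t.cc i w s⟩

/-- more coordinates -/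
def cmp (f : A' → A'') (t : Tr W₀ X lam h A' r n) : Tr W₀ X lam h A'' r n :=
  ⟨t.tw, fun w s => t.co w (s ∘ f), t.tc, fun i w s => t.cc i w (s ∘ f)⟩

/-- any change of parameters -/
def rep (g : (A'' → ℝ) → A' → ℝ) (t : Tr W₀ X lam h A' r n) : Tr W₀ X lam h A'' r n :=
  ⟨t.tw, fun w s => t.co w (g s), t.tc, fun i w s => t.cc i w (g s)⟩

end Tr

variable {Wi W₀ : Type} {X : Mf 4} {A κ lam : Type} [Fintype A] [Fintype κ] [Fintype lam]
  [DecidableEq lam] {M : Mark X A κ} {W : World M} {N : ML M lam} {h : Type} {r n : ℕ}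

section std
variable (M) (ok : Reg A → Prop) (nb : h → Set X.M)

/-- admissible field terms -/
structure Val (ρ : Reg A) (τ : Tm X.M lam r n) : Prop where
  ok : ok ρ
  reg : M.sys.IsReg ρ
  tm : TmIn X.I (M.sys.U ρ) τ
  bas : Bas τ
  zc : τ.Zc

/-- admissible terms of the cut `i` -/
structure ValC (i : h) (ρ : Reg A) (t : Tc X.M lam r) : Prop where
  reg : M.sys.IsReg ρ
  nb : nb i ⊆ M.sys.U ρ
  xi : XiIn X.I (M.sys.U ρ) t.ξ

namespace Sw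

/-- the term -/
def tw : Sw X.M A h lam r n → Tm X.M lam r n
  | fld ρ τ _ => if Val M ok ρ τ then τ else z0
  | row i a k => .cz i a k
  | cut .. => z0

/-- its coefficient -/
def co : Sw X.M A h lam r n → (A → ℝ) → ℝ
  | fld ρ τ k => if Val M ok ρ τ then cg M.sys ρ k else 0
  | row .. => 1
  | cut .. => 0

/-- the term of the cut `i` -/
def tc (i : h) : Sw X.M A h lam r n → Tc X.M lam r
  | cut j ρ t _ => if j = i ∧ ValC M nb i ρ t then t else c0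
  | _ => c0

/-- its coefficient -/
def cc (i : h) : Sw X.M A h lam r n → (A → ℝ) → ℝ
  | cut j ρ t k => if j = i ∧ ValC M nb i ρ t then cg M.sys ρ k else 0
  | _ => 0

end Sw

/-- **the standard family**; `th` are the wall parameters seen by the coefficients -/
def Tr.std {A' : Type} (th : (A' → ℝ) → A → ℝ) : Tr (Sw X.M A h lam r n) X.M lam h A' r n :=
  ⟨Sw.tw M ok, fun w s => w.co M ok (th s), Sw.tc M nb, fun i w s => w.cc M nb i (th s)⟩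

end std

/-- the cross-section with the neck words `ty` -/
@[reducible] def xe (S : Xs W₀ κ lam) (ty : Wi → YW S.Y.I S.Y.M →₀ ℝ) : Xs Wi κ lam :=
  ⟨S.Y, S.C, S.N, ty⟩

end Crest.Agent.X212.Jb7

namespace Crest.Agent.X212.An.Job
open M Wrd81 Nd18 Jb7

variable {Wi W₀ W₁ : Type} {X : Mf 4} {A κ lam : Type} [Fintype A] [Fintype κ] [Fintype lam]
  [DecidableEq lam] {M : Mark X A κ} {W : World M} {N : ML M lam} {Λ : Lns W N}
  {A' A'' h : Type} [Fintype A'] [DecidableEq A'] [Fintype A''] [DecidableEq A''] [Fintype h]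
  {r n : ℕ} (J : Job W₀ Λ A' h r n)

/-- the terms of a job -/
def tr : Tr W₀ X.M (lam ⊕ lam) h A' r n := ⟨J.tw, J.co, J.tc, J.cc⟩

/-- the job with the terms `t` and the neck words `ty` -/
@[reducible] def putY (t : Tr Wi X.M (lam ⊕ lam) h A' r n)
    (ty : ∀ a, Wi → YW (J.xs a).Y.I (J.xs a).Y.M →₀ ℝ) : Job Wi Λ A' h r n :=
  { J with tw := t.tw, co := t.co, tc := t.tc, cc := t.cc, xs := fun a => xe (J.xs a) (ty a) }

/-- the job with the terms `t` and without neck words -/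
@[reducible] def put (t : Tr Wi X.M (lam ⊕ lam) h A' r n) : Job Wi Λ A' h r n := J.putY t 0

/-- the fields of `OK` on terms -/
structure TOK (t : Tr Wi X.M (lam ⊕ lam) h A' r n) : Prop where
  tw : ∀ w, ∃ V : Set A, TmIn X.I (M.sys.cores (J.hw \ V))ᶜ (t.tw w) ∧ ∃ s₀ < (1 : ℝ),
    ∀ σ ∈ J.𝒦, ∀ s ∈ J.dom σ, ∀ a x, J.hd a = some x → x ∈ V → s₀ ≤ s a → t.co w s = 0
  co : ∀ w, ContDiff ℝ ∞ (t.co w)
  tc : ∀ i w, ∃ V : Set A, XiIn X.I (M.sys.cores (J.hw \ V))ᶜ (t.tc i w).ξ ∧ ∃ s₀ < (1 : ℝ),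
    ∀ σ ∈ J.𝒦, ∀ s ∈ J.dom σ, ∀ a x, J.hd a = some x → x ∈ V → s₀ ≤ s a → t.cc i w s = 0
  cc : ∀ i w, ContDiff ℝ ∞ (t.cc i w)

/-- the fields of `Loc` on terms -/
structure TLoc (sh : Set A') (t : Tr Wi X.M (lam ⊕ lam) h A' r n) : Prop where
  cc : ∀ σ ∈ J.𝒦, ∀ s ∈ J.dom σ, ∀ s' ∈ J.dom σ, ∀ c : M.Cl, Sys.inf (J.Θ s).2 = c.1 →
    Sys.inf (J.Θ s').2 = c.1 → ∀ P : Set (Reg A), (∀ π ∈ P, M.sys.Piece c.1 π) →
    J.Ag sh (⋃ π ∈ P, M.sys.inn π) s s' → ∀ i, J.nb i ⊆ ⋃ π ∈ P, M.sys.U π →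
    ∀ w, t.cc i w s = t.cc i w s'
  co : ∀ σ ∈ J.𝒦, ∀ s ∈ J.dom σ, ∀ s' ∈ J.dom σ, ∀ c : M.Cl, Sys.inf (J.Θ s).2 = c.1 →
    Sys.inf (J.Θ s').2 = c.1 → ∀ P : Set (Reg A), (∀ π ∈ P, M.sys.Piece c.1 π) →
    J.Ag sh (⋃ π ∈ P, M.sys.inn π) s s' → ∀ w, t.co w s = t.co w s' ∨
      (t.tw w).Van (⋃ π ∈ P, M.sys.U π)
  bas : ∀ w, Bas (t.tw w)

/-- richness at one parameter -/
def TAt (t : Tr Wi X.M (lam ⊕ lam) h A' r n) (s : A' → ℝ) (P : Set (Reg A)) : Prop :=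
  (∀ π ∈ P, (J.put t).RichT s π) ∧ (J.put t).RichS s ∧
    ∀ π ∈ P, ∀ i, J.nb i ⊆ M.sys.U π → (J.put t).RichC s π i

/-- richness over a face; unfolds to `∀ s ∈ cl σ, inf (J.Θ s).2 = c.1 → J.TAt t s P` -/
abbrev TRich (t : Tr Wi X.M (lam ⊕ lam) h A' r n) (σ : Cel A') (c : M.Cl) (P : Set (Reg A)) :
    Prop := (J.put t).Rich σ c P

/-- `J'` has the coordinates of `J` (along `f`) and further ones -/
structure Map (J' : Job W₁ Λ A'' h r n) (J : Job W₀ Λ A' h r n) (f : A' → A'') : Prop where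
  K : ∀ σ ∈ J'.𝒦, σ ∘ f ∈ J.𝒦
  hd : ∀ a, J'.hd (f a) = J.hd a
  rg : ∀ a' x, J'.hd a' = some x → a' ∈ range f
  inf : ∀ σ ∈ J'.𝒦, ∀ s ∈ J'.dom σ, Sys.inf (J'.Θ s).2 = Sys.inf (J.Θ (s ∘ f)).2
  nb : J'.nb = J.nb

/-- what the standard family needs from the parameters `th` -/
structure Th (sh : Set A') (th : (A' → ℝ) → A → ℝ) : Prop where
  sm : ContDiff ℝ ∞ th
  par : ∀ σ ∈ J.𝒦, ∀ s ∈ J.dom σ, th s ∈ M.sys.Par
  inf : ∀ σ ∈ J.𝒦, ∀ s ∈ J.dom σ, Sys.inf (th s) = Sys.inf (J.Θ s).2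
  lin : ∃ s₀ < (1 : ℝ), ∀ a x, J.hd a = some x → ∀ s, s₀ ≤ s a → th s x = s a
  loc : ∀ x s s', J.Ag sh {x} s s' → th s x = th s' x

end Crest.Agent.X212.An.Job

namespace Crest.Agent.X212.Jb7
open An M Wrd81 Nd18

variable {X : Mf 4} {A κ lam : Type} [Fintype A] [Fintype κ] [Fintype lam]
  [DecidableEq lam] {M : Mark X A κ} {W : World M} {N : ML M lam}

/-- the parameter of a hard wall: `0` for `x ≤ 0`, `x` for `1 / 2 ≤ x` -/
def rho (x : ℝ) : ℝ := x * Real.smoothTransition (2 * x)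

/-- the switch of the neck terms: `0` for `t ≤ 3 / 4`, `1` for `7 / 8 ≤ t` -/
def swc (t : ℝ) : ℝ := Real.smoothTransition (8 * t - 6)

/-- wall parameters: hard walls `H`, and the values `Tf` on the frozen walls `fz` -/
def thS {B : Type} (H fz : Set A) (Tf : A → (B → ℝ) → ℝ) (s : A ⊕ B → ℝ) (a : A) : ℝ :=
  if a ∈ fz then Tf a (s ∘ .inr) else if a ∈ H then rho (s (.inl a)) else 0

/-- the data of a skeleton -/
structure Sk (Λ : Lns W N) (B h : Type) : Type 1 where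
  H : Set A
  fz : Set A
  uf : (B → ℝ) → ℝ
  Tf : A → (B → ℝ) → ℝ
  m : M.Cl
  𝒦 : Set (Cel (A ⊕ B))
  k : ℝ
  ct : h → Cut X.M (lam ⊕ lam)
  nb : h → Set X.M
  xs : A → Xs Empty κ lam
  g : ∀ a, (xs a).Y.M ≃ₘ^∞⟮(xs a).Y.I, (M.bn a).Y.I⟯ (M.bn a).Y.M
  K : ∀ c a b p, Act m c a b p → Nk (xs a).D (Λ.B m c) (Λ.G m c p)

namespace Sk
variable {Λ : Lns W N} {B h : Type} [DecidableEq A] [Fintype B] [DecidableEq B] [Fintype h]
  (S : Sk Λ B h)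

/-- the parameters -/
def Θ (s : A ⊕ B → ℝ) : Prm A := (S.uf (s ∘ .inr), thS S.H S.fz S.Tf s)

/-- **the skeleton job** -/
@[reducible] def job (r n : ℕ) : Job Empty Λ (A ⊕ B) h r n where
  m := S.m
  𝒦 := S.𝒦
  hd := Sum.elim (fun a => if a ∈ S.H then some a else none) fun _ => none
  Θ := S.Θ
  k := S.k
  tw := Empty.elim
  co := Empty.elim
  ct := S.ct
  nb := S.nb
  tc _ := Empty.elim
  cc _ := Empty.elim
  xs := S.xs
  g := S.g
  ν x s := if x ∈ S.m.1 then swc ((S.Θ s).2 x) else 0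
  K := S.K

/-- the shared coordinates -/
def sh : Set (A ⊕ B) := {a | ∀ x ∈ S.H, a ≠ .inl x}

/-- what makes the skeleton a job -/
structure OK : Prop where
  dj : Disjoint S.H S.fz
  uf : ContDiff ℝ ∞ S.uf
  Tf : ∀ a, ContDiff ℝ ∞ (S.Tf a)
  T : ∀ a ∈ S.fz, ∀ s, S.Tf a s ∈ Ico (0 : ℝ) 1
  mem : ∀ a ∈ S.H, ¬M.pin a → a ∈ S.m.1
  down : ∀ σ ∈ S.𝒦, ∀ a b, σ a = none → (b = true → a ∈ S.sh) → update σ a (some b) ∈ S.𝒦
  soft : ∀ σ ∈ S.𝒦, ∀ a ∈ S.H, σ (.inl a) ≠ some true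
  cell : ∀ σ ∈ S.𝒦, M.sys.Cell ({a ∈ S.H | σ (.inl a) = none} ∪ S.fz)
  nb : ∀ i, IsOpen (S.nb i) ∧ CutIn X.I (S.nb i) (S.ct i) ∧ IsPreconnected (S.nb i)
  dn : Pairwise (Disjoint on S.nb)
  ct : ∀ σ ∈ S.𝒦, ∀ s ∈ (S.job 0 0).dom σ, ∀ c : M.Cl, Sys.inf (S.Θ s).2 = c.1 →
    ∀ i, Disjoint (S.nb i) (M.sys.cores c.1) →
      ((S.job 0 0).cut c i).OK (Λ.B S.m c) (Λ.G S.m c (S.Θ s)).F
  xs : ∀ a, (S.xs a).C.OK ∧ (S.xs a).N.OK (S.xs a).D
  iso : ∀ a, ¬M.pin a → Cy.Iso (S.xs a).C (N.cy a) (S.g a)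
  nk : ∀ c a b p ha, IsNk a b (S.g a) (S.K c a b p ha)

end Sk

end Crest.Agent.X212.Jb7
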